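import Vale.Agent.P150.Defs
import Vale.Agent.P150.SKDefs

open MeasureTheory ProbabilityTheory Filter Topology

namespace P150

noncomputable section

/-! ## [A] Face.lean -/

theorem face_ineq : ∃ C : ℝ, 0 < C ∧ ∀ (J a b : ℝ), |J| ≤ 1/10 → ∀ F : Bool → Bool → ℝ,
    -(C * |J| ^ 3) * ∑ s : Bool, ∑ t : Bool,
      Real.exp (a * sp s + b * sp t + J * sp s * sp t) *
      ((1 - Real.tanh (a + J * sp t) ^ 2) * ((F true t - F false t) / 2) ^ 2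
       + (1 - Real.tanh (b + J * sp s) ^ 2) * ((F s true - F s false) / 2) ^ 2)
    ≤ ∑ s : Bool, ∑ t : Bool,
      Real.exp (a * sp s + b * sp t + J * sp s * sp t) *
      ((sp s - Real.tanh (a + J * sp t)) * (sp t - Real.tanh (b + J * sp s))
          * ((F true t - F false t) / 2) * ((F s true - F s false) / 2)
        + J * ((1 - Real.tanh (a + J * sp t) ^ 2) * ((F true t - F false t) / 2))
            * ((1 - Real.tanh (b + J * sp s) ^ 2) * ((F s true - F s false) / 2))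
        + 2 * J ^ 2
            * (Real.tanh (a + J * sp t) * (1 - Real.tanh (a + J * sp t) ^ 2)
                * ((F true t - F false t) / 2))
            * (Real.tanh (b + J * sp s) * (1 - Real.tanh (b + J * sp s) ^ 2)
                * ((F s true - F s false) / 2))) := by
  sorry

/-! ## [B] Bochner.lean -/

theorem bochner : ∃ C : ℝ, 0 < C ∧ ∀ {ι : Type} [Fintype ι] [DecidableEq ι]
    (J : ι → ι → ℝ) (M δ : ℝ), Good J M δ → δ ≤ 1/10 → 0 ≤ M → M ≤ 1 →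
    ∀ (h : ι → ℝ) (f : (ι → Bool) → ℝ),
    (1 - M - C * δ) * dirf J h f ≤ ev J h (fun x => gen J h f x ^ 2) := by
  sorry

section ising
variable {ι : Type} [Fintype ι] [DecidableEq ι]

/-! ## [C] GapAbs.lean -/

/-- reversibility -/
theorem ev_mul_gen (J : ι → ι → ℝ) (hs : ∀ i j, J i j = J j i) (hd : ∀ i, J i i = 0)
    (h : ι → ℝ) (f g : (ι → Bool) → ℝ) :
    ev J h (fun x => f x * gen J h g x) =
      - ev J h (fun x => ∑ i, Vg J h i x * dB i f x * dB i g x) := by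
  sorry

theorem gap_of_bochner (J : ι → ι → ℝ) (hs : ∀ i j, J i j = J j i) (hd : ∀ i, J i i = 0)
    (h : ι → ℝ) (γ : ℝ) (hγ : 0 < γ)
    (H : ∀ f, γ * dirf J h f ≤ ev J h (fun x => gen J h f x ^ 2)) :
    ∀ f, γ * vr J h f ≤ dirf J h f := by
  sorry

theorem cov_of_gap (J : ι → ι → ℝ) (h : ι → ℝ) (γ : ℝ) (hγ : 0 < γ)
    (H : ∀ f, γ * vr J h f ≤ dirf J h f) (a : ι → ℝ) :
    vr J h (fun x => ∑ i, a i * sp (x i)) ≤ (∑ i, a i ^ 2) / γ := by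
  sorry

/-! ## [D] Tensor.lean -/

theorem tensor (u : ι → Bool → ℝ) (hu : ∀ i b, 0 < u i b) (f : (ι → Bool) → ℝ)
    (hf : ∀ x, 0 < f x) :
    entW Finset.univ (fun x => ∏ i, u i (x i)) f ≤ entSum (fun x => ∏ i, u i (x i)) f := by
  sorry

/-! ## [E] LogLap.lean -/

theorem log_lap (J : ι → ι → ℝ) (y v : ι → ℝ) (q : ℝ)
    (H : ∀ y' : ι → ℝ, vr J y' (fun x => ∑ i, v i * sp (x i)) ≤ q) :
    Real.log (Zf J (y + v)) ≤
      Real.log (Zf J y) + ev J y (fun x => ∑ i, v i * sp (x i)) + q / 2 := by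
  sorry

/-! ## [F] EntStab.lean -/

/-- entropic stability. `B` symmetric PSD with `B ≤ Λ`; `ν = f μ / ∫ f dμ`,
`Δ_i = ν(x_i) - μ(x_i)`: `½ N ⟨Δ, B Δ⟩ ≤ Λ K Ent`. -/
theorem ent_stab (J : ι → ι → ℝ) (y : ι → ℝ) (f : (ι → Bool) → ℝ) (hf : ∀ x, 0 < f x)
    (B : ι → ι → ℝ) (hB : ∀ i j, B i j = B j i) (Λ K : ℝ) (hΛ : 0 < Λ) (hK : 0 < K)
    (hB0 : ∀ v : ι → ℝ, 0 ≤ ∑ i, ∑ j, B i j * v i * v j)
    (hB1 : ∀ v : ι → ℝ, ∑ i, ∑ j, B i j * v i * v j ≤ Λ * ∑ i, v i ^ 2)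
    (hcov : ∀ y' a : ι → ℝ, vr J y' (fun x => ∑ i, a i * sp (x i)) ≤ K * ∑ i, a i ^ 2)
    (Δ : ι → ℝ)
    (hΔ : ∀ i, Δ i = (∑ x, wt J y x * f x * sp (x i)) / (∑ x, wt J y x * f x)
      - (∑ x, wt J y x * sp (x i)) / (∑ x, wt J y x)) :
    (∑ x, wt J y x * f x) * (∑ i, ∑ j, B i j * Δ i * Δ j) / 2 ≤
      Λ * K * entW Finset.univ (wt J y) f := by
  sorry

/-! ## [G] MaxPrin.lean -/

theorem max_prin {κ : Type} [Fintype κ] (b : κ → ι → ℝ) (α : ℝ)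
    (D Dt : ℝ → (ι → ℝ) → ℝ) (D1 D2 : κ → ℝ → (ι → ℝ) → ℝ)
    (hcont : Continuous (fun p : ℝ × (ι → ℝ) => D p.1 p.2))
    (ht : ∀ t ∈ Set.Icc (0:ℝ) 1, ∀ y, HasDerivAt (fun s => D s y) (Dt t y) t)
    (h1 : ∀ k, ∀ t ∈ Set.Icc (0:ℝ) 1, ∀ y,
      HasDerivAt (fun s : ℝ => D t (y + s • b k)) (D1 k t y) 0)
    (h2 : ∀ k, ∀ t ∈ Set.Icc (0:ℝ) 1, ∀ y,
      HasDerivAt (fun s : ℝ => D1 k t (y + s • b k)) (D2 k t y) 0)
    (hineq : ∀ t ∈ Set.Icc (0:ℝ) 1, ∀ y, α * D t y ≤ Dt t y - (∑ k, D2 k t y) / 2)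
    (h0 : ∀ y, 0 ≤ D 0 y)
    (hgrow : ∃ C : ℝ, ∀ t ∈ Set.Icc (0:ℝ) 1, ∀ y : ι → ℝ,
      -(C * Real.exp (∑ i, |y i|)) ≤ D t y) :
    ∀ t ∈ Set.Icc (0:ℝ) 1, ∀ y, 0 ≤ D t y := by
  sorry

/-! ## [H] Heat.lean, Ate.lean -/

/-- `e^{t(xᵀJx + M n)/2 + y·x}` -/
def wB (J : ι → ι → ℝ) (M t : ℝ) (y : ι → ℝ) (x : ι → Bool) : ℝ :=
  Real.exp (t * ((∑ i, ∑ j, J i j * sp (x i) * sp (x j)) + M * Fintype.card ι) / 2
    + ∑ i, y i * sp (x i))

/-- tilted mean of the linear function `b · x` over the finite set `s` -/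
def tmean (s : Finset (ι → Bool)) (w : (ι → Bool) → ℝ) (b : ι → ℝ) : ℝ :=
  (∑ x ∈ s, w x * ∑ i, b i * sp (x i)) / ∑ x ∈ s, w x

/-- first and second derivatives of the unnormalised entropy and the heat identity -/
theorem entW_heat (J : ι → ι → ℝ) (M : ℝ) {κ : Type} [Fintype κ] (b : κ → ι → ℝ)
    (hb : ∀ i j, ∑ k, b k i * b k j = J i j + if i = j then M else 0)
    (s : Finset (ι → Bool)) (hs : s.Nonempty) (f : (ι → Bool) → ℝ) (hf : ∀ x, 0 < f x) :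
    ∃ (Dt : ℝ → (ι → ℝ) → ℝ) (D1 D2 : κ → ℝ → (ι → ℝ) → ℝ),
      (∀ t y, HasDerivAt (fun r => entW s (wB J M r y) f) (Dt t y) t) ∧
      (∀ k t y, HasDerivAt (fun r : ℝ => entW s (wB J M t (y + r • b k)) f) (D1 k t y) 0) ∧
      (∀ k t y, HasDerivAt (fun r : ℝ => D1 k t (y + r • b k)) (D2 k t y) 0) ∧
      (∀ t y, Dt t y - (∑ k, D2 k t y) / 2 =
        (∑ x ∈ s, wB J M t y x * f x) *
          (∑ k, (tmean s (fun x => wB J M t y x * f x) (b k) - tmean s (wB J M t y) (b k)) ^ 2)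
          / 2) ∧
      Continuous (fun p : ℝ × (ι → ℝ) => entW s (wB J M p.1 p.2) f) := by
  sorry

theorem ate (J : ι → ι → ℝ) (hs : ∀ i j, J i j = J j i) (hd : ∀ i, J i i = 0)
    (M K : ℝ) (hM : 0 < M) (hK : 0 < K)
    (hq1 : ∀ y : ι → ℝ, ∑ i, ∑ j, J i j * y i * y j ≤ M * ∑ i, y i ^ 2)
    (hq2 : ∀ y : ι → ℝ, -(M * ∑ i, y i ^ 2) ≤ ∑ i, ∑ j, J i j * y i * y j)
    (hcov : ∀ t ∈ Set.Icc (0:ℝ) 1, ∀ y a : ι → ℝ,
      vr (fun i j => t * J i j) y (fun x => ∑ i, a i * sp (x i)) ≤ K * ∑ i, a i ^ 2)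
    (h : ι → ℝ) (f : (ι → Bool) → ℝ) (hf : ∀ x, 0 < f x) :
    entW Finset.univ (wt J h) f ≤ Real.exp (2 * M * K) * entSum (wt J h) f := by
  sorry

/-! ## [I] Semi.lean : basic facts on `P_t = exp(tL)` -/

theorem Lm_mulVec (J : ι → ι → ℝ) (hd : ∀ i, J i i = 0) (h : ι → ℝ) (f : (ι → Bool) → ℝ)
    (x : ι → Bool) : (Lm J h).mulVec f x = gen J h f x := by
  sorry

theorem Pt_nonneg (J : ι → ι → ℝ) (h : ι → ℝ) (t : ℝ) (ht : 0 ≤ t) (x y : ι → Bool) :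
    0 ≤ Pt J h t x y := by
  sorry

theorem Pt_row_sum (J : ι → ι → ℝ) (hd : ∀ i, J i i = 0) (h : ι → ℝ) (t : ℝ)
    (x : ι → Bool) : ∑ y, Pt J h t x y = 1 := by
  sorry

theorem Pt_symm (J : ι → ι → ℝ) (hs : ∀ i j, J i j = J j i) (hd : ∀ i, J i i = 0)
    (h : ι → ℝ) (t : ℝ) (x y : ι → Bool) :
    wt J h x * Pt J h t x y = wt J h y * Pt J h t y x := by
  sorry

theorem Pt_deriv (J : ι → ι → ℝ) (hd : ∀ i, J i i = 0) (h : ι → ℝ) (f : (ι → Bool) → ℝ)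
    (t : ℝ) (x : ι → Bool) :
    HasDerivAt (fun r => (Pt J h r).mulVec f x) (gen J h ((Pt J h t).mulVec f) x) t := by
  sorry

theorem Pt_zero (J : ι → ι → ℝ) (h : ι → ℝ) : Pt J h 0 = 1 := by
  sorry

/-! ## [J] EntDecay.lean -/

/-- the entropy production dominates the sum of conditional entropies -/
theorem ent_production (J : ι → ι → ℝ) (hs : ∀ i j, J i j = J j i) (hd : ∀ i, J i i = 0)
    (h : ι → ℝ) (f : (ι → Bool) → ℝ) (hf : ∀ x, 0 < f x) :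
    entSum (wt J h) f ≤ - ∑ x, wt J h x * (gen J h f x * Real.log (f x)) := by
  sorry

theorem ent_decay (J : ι → ι → ℝ) (hs : ∀ i j, J i j = J j i) (hd : ∀ i, J i i = 0)
    (h : ι → ℝ) (CA : ℝ) (hCA : 0 < CA)
    (hate : ∀ f : (ι → Bool) → ℝ, (∀ x, 0 < f x) →
      entW Finset.univ (wt J h) f ≤ CA * entSum (wt J h) f)
    (f : (ι → Bool) → ℝ) (hf : ∀ x, 0 < f x) (t : ℝ) (ht : 0 ≤ t) :
    entW Finset.univ (wt J h) ((Pt J h t).mulVec f) ≤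
      Real.exp (-t / CA) * entW Finset.univ (wt J h) f := by
  sorry

/-- Hellinger form of Pinsker -/
theorem tv_le_ent (J : ι → ι → ℝ) (h : ι → ℝ) (f : (ι → Bool) → ℝ) (hf : ∀ x, 0 < f x)
    (hf1 : ∑ x, wt J h x * f x = Zf J h) :
    (∑ x, wt J h x / Zf J h * |f x - 1|) / 2 ≤
      Real.sqrt (entW Finset.univ (wt J h) f / Zf J h) := by
  sorry

theorem tv_decay (J : ι → ι → ℝ) (hs : ∀ i j, J i j = J j i) (hd : ∀ i, J i i = 0)
    (h : ι → ℝ) (CA : ℝ) (hCA : 0 < CA)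
    (hate : ∀ f : (ι → Bool) → ℝ, (∀ x, 0 < f x) →
      entW Finset.univ (wt J h) f ≤ CA * entSum (wt J h) f)
    (x : ι → Bool) (t : ℝ) (ht : 0 ≤ t) :
    (∑ y, |Pt J h t x y - wt J h y / Zf J h|) / 2 ≤
      2 * Real.sqrt (Real.exp (-t / CA) * Real.log (Zf J h / wt J h x)) := by
  sorry

end ising

/-! ## [K] IBP.lean -/

theorem gauss_ibp {κ : Type} [Fintype κ] [DecidableEq κ] (F F' : (κ → ℝ) → ℝ) (k : κ)
    (hF : Continuous F) (hF' : Continuous F') (bF : ∃ C : ℝ, ∀ x, |F x| ≤ C)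
    (bF' : ∃ C : ℝ, ∀ x, |F' x| ≤ C)
    (hd : ∀ x, HasDerivAt (fun s => F (Function.update x k s)) (F' x) (x k)) :
    ∫ x, x k * F x ∂(Measure.pi fun _ : κ => gaussianReal 0 1) =
      ∫ x, F' x ∂(Measure.pi fun _ : κ => gaussianReal 0 1) := by
  sorry

/-! ## [L] Slepian.lean -/

theorem slepian {U κ κ' : Type} [Fintype U] [Fintype κ] [Fintype κ']
    (a : U → κ → ℝ) (b : U → κ' → ℝ)
    (hdiag : ∀ u, ∑ k, a u k ^ 2 = ∑ k, b u k ^ 2)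
    (hoff : ∀ u v, ∑ k, b u k * b v k ≤ ∑ k, a u k * a v k)
    (T δ : ℝ) (hδ : 0 < δ) :
    (Measure.pi fun _ : κ' => gaussianReal 0 1) {z | ∀ u, ∑ k, b u k * z k ≤ T} ≤
      (Measure.pi fun _ : κ => gaussianReal 0 1) {z | ∀ u, ∑ k, a u k * z k < T + δ} := by
  sorry

/-! ## [M] GaussTail.lean -/

theorem gauss_exp_sq : ∫ x, Real.exp (x ^ 2 / 4) ∂(gaussianReal 0 1) = Real.sqrt 2 := by
  sorry

/-- the norm of a standard Gaussian vector -/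
theorem gauss_norm (ε : ℝ) (hε : 0 < ε) :
    Tendsto (fun n : ℕ => (Measure.pi fun _ : Fin n => gaussianReal 0 1)
      {z | ∑ i, z i ^ 2 ≤ (1 + ε) * n}) atTop (𝓝 1) := by
  sorry

theorem sk_rows (β : ℝ) (hβ : 0 ≤ β) (hβ' : β ≤ 1/2) :
    Tendsto (fun n : ℕ => disorder n {g | ∀ i : Fin n, ∑ j, SKJ β g i j ^ 2 ≤ β})
      atTop (𝓝 1) := by
  sorry

theorem g_entries (ε : ℝ) (hε : 0 < ε) :
    Tendsto (fun n : ℕ => disorder n {g | ∀ p : Fin n × Fin n, |g p| ≤ ε * Real.sqrt n})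
      atTop (𝓝 1) := by
  sorry

theorem sk_entries (β δ : ℝ) (hδ : 0 < δ) :
    Tendsto (fun n : ℕ => disorder n {g | ∀ i j : Fin n, |SKJ β g i j| ≤ δ})
      atTop (𝓝 1) := by
  sorry

/-! ## [N] LamMax.lean -/

/-- Slepian applied to a finite subset of the sphere -/
theorem net_bound (ε : ℝ) (hε : 0 < ε) (sg : ℝ) (hsg : sg = 1 ∨ sg = -1)
    (U : (n : ℕ) → Finset (Fin n → ℝ)) (hU : ∀ n, ∀ u ∈ U n, ∑ i, u i ^ 2 = 1) :
    Tendsto (fun n : ℕ => disorder n {g | ∀ u ∈ U n,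
      sg * (∑ i, ∑ j, (if i = j then 0 else cpl g i j) * u i * u j) ≤ (2 + ε) * Real.sqrt n})
      atTop (𝓝 1) := by
  sorry

theorem lam_max (β ε : ℝ) (hβ : 0 ≤ β) (hε : 0 < ε) :
    Tendsto (fun n : ℕ => disorder n {g | ∀ y : Fin n → ℝ,
      |∑ i, ∑ j, SKJ β g i j * y i * y j| ≤ (2 * β + ε) * ∑ i, y i ^ 2}) atTop (𝓝 1) := by
  sorry

/-! ## [O] Good.lean -/

theorem sk_good (β : ℝ) (hβ : 0 ≤ β) (hβ' : β ≤ 1/2) (ε δ : ℝ) (hε : 0 < ε) (hδ : 0 < δ) :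
    Tendsto (fun n : ℕ => disorder n {g | Good (SKJ (n := n) β g) (2 * β + ε) δ})
      atTop (𝓝 1) := by
  sorry

/-! ## [P] Bridge.lean : the SK objects in terms of the general Ising ones -/

open P150.SK in
theorem gibbs_eq {n : ℕ} (β : ℝ) (g : Fin n × Fin n → ℝ) (h : Fin n → ℝ) (x : Fin n → Bool) :
    gibbs β g h x = wt (SKJ β g) h x / Zf (SKJ β g) h := by
  sorry

open P150.SK in
theorem kernel_eq {n : ℕ} (β : ℝ) (g : Fin n × Fin n → ℝ) (h : Fin n → ℝ) (t : ℝ) :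
    kernel β g h t = Pt (SKJ β g) h t := by
  sorry

open P150.SK in
theorem variance_eq {n : ℕ} (β : ℝ) (g : Fin n × Fin n → ℝ) (h : Fin n → ℝ)
    (f : (Fin n → Bool) → ℝ) :
    variance β g h f = vr (SKJ β g) h f := by
  sorry

open P150.SK in
theorem dirichlet_eq {n : ℕ} (β : ℝ) (g : Fin n × Fin n → ℝ) (h : Fin n → ℝ)
    (f : (Fin n → Bool) → ℝ) :
    dirichlet β g h f = dirf (SKJ β g) h f := by
  sorry

open P150.SK in
/-- `D(x_i) = E V_i ≤ Var(x_i)` -/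
theorem gap_le_one {n : ℕ} (hn : 0 < n) (β : ℝ) (g : Fin n × Fin n → ℝ) (h : Fin n → ℝ) :
    gap β g h ≤ 1 := by
  sorry

/-! ## [Q] Clip.lean : uniformity in the external field -/

section ising
variable {ι : Type} [Fintype ι] [DecidableEq ι]

/-- stability of the semigroup under a perturbation of the external field: the resampling
probabilities at `i` do not change if `h i = h' i` and differ by at most `2 e^{-2R}` if
`h i, h' i` have the same sign and both local fields are always at least `R` in absolute value -/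
theorem Pt_perturb (J : ι → ι → ℝ) (h h' : ι → ℝ) (R : ℝ) (hR : 0 ≤ R)
    (H : ∀ i, h i = h' i ∨ (∀ x, R ≤ fld J h i x ∧ R ≤ fld J h' i x) ∨
      (∀ x, fld J h i x ≤ -R ∧ fld J h' i x ≤ -R)) (t : ℝ) (ht : 0 ≤ t) (x : ι → Bool) :
    ∑ y, |Pt J h t x y - Pt J h' t x y| ≤ t * (Fintype.card ι) * (2 * Real.exp (-2 * R)) := by
  sorry

/-- stationarity -/
theorem stationary (J : ι → ι → ℝ) (hs : ∀ i j, J i j = J j i) (hd : ∀ i, J i i = 0)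
    (h : ι → ℝ) (t : ℝ) (y : ι → Bool) :
    ∑ x, wt J h x * Pt J h t x y = wt J h y := by
  sorry

/-- mixing uniformly over the external field, from an approximate tensorization of entropy
valid for every external field -/
theorem mix_uniform (J : ι → ι → ℝ) (hs : ∀ i j, J i j = J j i) (hd : ∀ i, J i i = 0)
    (hJ : ∀ i j, |J i j| ≤ 1) (hn : 2 ≤ Fintype.card ι) (CA : ℝ) (hCA : 1 ≤ CA)
    (hate : ∀ h : ι → ℝ, ∀ f : (ι → Bool) → ℝ, (∀ x, 0 < f x) →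
      entW Finset.univ (wt J h) f ≤ CA * entSum (wt J h) f)
    (h : ι → ℝ) (t : ℝ) (ht : t = 100 * CA * Real.log (CA * Fintype.card ι)) (x : ι → Bool) :
    (∑ y, |Pt J h t x y - wt J h y / Zf J h|) / 2 ≤ 1 / 4 := by
  sorry

end ising

/-! ## [R] Main.lean -/

open P150.SK in
theorem main (β : ℝ) (hβ0 : 0 ≤ β) (hβ : β < 1/2) :
    ∃ C : ℝ, ∀ ε : ℝ, 0 < ε → Tendsto (fun n : ℕ => disorderLaw n
      {g | ∀ h : Fin n → ℝ, 1 - 2 * β - ε ≤ gap β g h ∧ gap β g h ≤ 1 ∧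
        tmix β g h ≤ C * Real.log n})
      atTop (𝓝 1) := by
  sorry

end

end P150
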