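import Vale.Agent.P150.Main

/-!
Skeleton 2 (P150): lower bound `t_mix ≥ c log n` for EVERY fixed `β ≥ 0` at zero field.
-/

open MeasureTheory ProbabilityTheory Filter Topology

namespace P150

noncomputable section

section ising
variable {ι : Type} [Fintype ι] [DecidableEq ι]

/-! ## [S] Grad.lean -/

/-- pointwise (Bakry-Emery type) gradient inequality, `∂_r |∇P_r f|² ≤ L |∇P_r f|² + 11 M |∇P_r f|²` -/
theorem grad_pointwise (J : ι → ι → ℝ) (M δ : ℝ) (hG : Good J M δ) (hδ : δ ≤ 1/10) (hM : 0 ≤ M)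
    (h : ι → ℝ) (g : (ι → Bool) → ℝ) (x : ι → Bool) :
    2 * (∑ i, dB i g x * dB i (gen J h g) x) - gen J h (fun x => ∑ i, dB i g x ^ 2) x ≤
      11 * M * ∑ i, dB i g x ^ 2 := by
  sorry

/-! ## [T] GradSemi.lean -/

theorem grad_semigroup (J : ι → ι → ℝ) (M δ : ℝ) (hG : Good J M δ) (hδ : δ ≤ 1/10) (hM : 0 ≤ M)
    (h : ι → ℝ) (f : (ι → Bool) → ℝ) (K : ℝ) (hK : ∀ x, ∑ i, dB i f x ^ 2 ≤ K)
    (t : ℝ) (ht : 0 ≤ t) (x : ι → Bool) :
    ∑ i, dB i ((Pt J h t).mulVec f) x ^ 2 ≤ Real.exp (11 * M * t) * K := by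
  sorry

theorem var_semigroup (J : ι → ι → ℝ) (M δ : ℝ) (hG : Good J M δ) (hδ : δ ≤ 1/10) (hM : 0 ≤ M)
    (h : ι → ℝ) (f : (ι → Bool) → ℝ) (K : ℝ) (hK : ∀ x, ∑ i, dB i f x ^ 2 ≤ K)
    (t : ℝ) (ht : 0 ≤ t) (x : ι → Bool) :
    (Pt J h t).mulVec (fun y => f y ^ 2) x - ((Pt J h t).mulVec f x) ^ 2 ≤
      4 * t * Real.exp (11 * M * t) * K := by
  sorry

/-! ## [U] Corr.lean -/

/-- the autocorrelation of the spins decays at most at rate one -/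
theorem corr_lower (J : ι → ι → ℝ) (hs : ∀ i j, J i j = J j i) (hd : ∀ i, J i i = 0)
    (h : ι → ℝ) (t : ℝ) (ht : 0 ≤ t) :
    Fintype.card ι * Real.exp (-t) ≤
      ev J h (fun x => ∑ i, sp (x i) * (Pt J h t).mulVec (fun y => sp (y i)) x) := by
  sorry

/-! ## [V] Lower.lean -/

theorem tv_lower (J : ι → ι → ℝ) (M δ : ℝ) (hG : Good J M δ) (hδ : δ ≤ 1/10) (hM : 0 ≤ M)
    (t : ℝ) (ht : 0 ≤ t)
    (hn : 32 * t * Real.exp ((11 * M + 2) * t) ≤ Fintype.card ι) (hn0 : 0 < Fintype.card ι) :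
    ∃ x : ι → Bool, 3 / 8 ≤ (∑ y, |Pt J 0 t x y - wt J 0 y / Zf J 0|) / 2 := by
  sorry

end ising

/-! ## [W] Good2.lean : `Good` for every `β ≥ 0` -/

theorem sk_good_all (β : ℝ) (hβ : 0 ≤ β) (δ : ℝ) (hδ : 0 < δ) :
    Tendsto (fun n : ℕ => disorder n {g | Good (SKJ (n := n) β g) (2 * β + 1 + 4 * β ^ 2) δ})
      atTop (𝓝 1) := by
  sorry

/-- the set in the definition of the mixing time is never empty -/
theorem tmix_set_nonempty {n : ℕ} (β : ℝ) (g : Fin n × Fin n → ℝ) (h : Fin n → ℝ) :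
    {t : ℝ | 0 ≤ t ∧ ∀ x : P150.SK.Cfg n, P150.SK.tv (P150.SK.kernel β g h t x)
      (P150.SK.gibbs β g h) ≤ 1 / 4}.Nonempty := by
  sorry

/-! ## [X] Main2.lean -/

open P150.SK in
theorem main_lower (β : ℝ) (hβ0 : 0 ≤ β) :
    ∃ c : ℝ, 0 < c ∧ Tendsto (fun n : ℕ => disorderLaw n
      {g | c * Real.log n ≤ tmix β g 0}) atTop (𝓝 1) := by
  sorry

end

end P150
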